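import Vale.Agent.P249.Reduce

namespace Vale.Agent.Results.P249.Subpolynomial

open Filter Asymptotics Vale.Agent.P249
open scoped ENNReal

universe u

/-- Dimension reduction in `L_p`: `d_p(n, D) ≤ exp (C (log n) ^ γ)` for every
`γ > max (1 / p) (1 / 2)`; hence `d_p(n, D) = n ^ o(1)` and `d_p(n, D) = o(n)`. -/
theorem result (p : ℝ≥0∞) (hp1 : 1 < p) (hp : p ≠ ∞) (D : ℝ) (hD : 1 < D) :
    (∀ n : ℕ, Embeds.{u} p n D (dimRed.{u} p n D)) ∧
    (∀ γ : ℝ, max (1 / p.toReal) (1 / 2) < γ → ∃ C : ℝ, ∀ n : ℕ, 2 ≤ n →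
      (dimRed.{u} p n D : ℝ) ≤ Real.exp (C * Real.log n ^ γ)) ∧
    (∀ η : ℝ, 0 < η →
      (fun n : ℕ => (dimRed.{u} p n D : ℝ)) =o[atTop] fun n : ℕ => (n : ℝ) ^ η) ∧
    (fun n : ℕ => (dimRed.{u} p n D : ℝ)) =o[atTop] fun n : ℕ => (n : ℝ) := by
  have hq1 : 1 < p.toReal := by
    simpa using (ENNReal.toReal_lt_toReal ENNReal.one_ne_top hp).2 hp1
  obtain ⟨γ₀, hγ₀, hγ₁⟩ := exists_between (show max (1 / p.toReal) (1 / 2) < 1 from
    max_lt ((div_lt_one (by linarith)).2 hq1) (by norm_num))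
  have key : ∀ γ : ℝ, max (1 / p.toReal) (1 / 2) < γ → ∃ C : ℝ, 0 < C ∧ ∀ n : ℕ, 2 ≤ n →
      (dimRed.{u} p n D : ℝ) ≤ Real.exp (C * Real.log n ^ γ) := by
    intro γ hγ
    have h2 := lt_of_le_of_lt (le_max_right _ _) hγ
    obtain ⟨C, hC, h⟩ := embeds.{u} hp1 hp hD (lt_of_le_of_lt (le_max_left _ _) hγ) h2
    refine ⟨C * 3 ^ γ, by positivity, fun n hn => ?_⟩
    obtain ⟨d, hd, he⟩ := h n
    have h3 : (dimRed.{u} p n D : ℝ) ≤ d := by exact_mod_cast Nat.sInf_le he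
    have h4 : Real.log 2 ≤ Real.log n := Real.log_le_log two_pos (by exact_mod_cast hn)
    have h5 := Real.log_two_gt_d9
    refine h3.trans (hd.trans ?_)
    rw [mul_assoc, ← Real.mul_rpow (by norm_num) (by linarith)]
    gcongr
    linarith
  have key2 : ∀ η : ℝ, 0 < η →
      (fun n : ℕ => (dimRed.{u} p n D : ℝ)) =o[atTop] fun n : ℕ => (n : ℝ) ^ η := by
    intro η hη
    obtain ⟨C, hC, h⟩ := key γ₀ hγ₀
    have h1 : Tendsto (fun n : ℕ => Real.log n) atTop atTop :=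
      Real.tendsto_log_atTop.comp tendsto_natCast_atTop_atTop
    have h2 : ∀ᶠ n : ℕ in atTop, Real.log n ^ (-(1 - γ₀)) < η / 2 / C :=
      ((tendsto_rpow_neg_atTop (sub_pos.2 hγ₁)).comp h1).eventually (gt_mem_nhds (by positivity))
    have h3 : (fun n : ℕ => (dimRed.{u} p n D : ℝ)) =O[atTop] fun n : ℕ => (n : ℝ) ^ (η / 2) := by
      refine IsBigO.of_bound' ?_
      filter_upwards [h2, eventually_ge_atTop 2] with n h2 hn
      have hn' : (2 : ℝ) ≤ n := by exact_mod_cast hn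
      have hl : 0 < Real.log n := Real.log_pos (by linarith)
      rw [Real.norm_of_nonneg (by positivity), Real.norm_of_nonneg (by positivity),
        Real.rpow_def_of_pos (by linarith)]
      refine (h n hn).trans (Real.exp_le_exp.2 ?_)
      rw [lt_div_iff₀ hC] at h2
      have : Real.log n ^ γ₀ = Real.log n * Real.log n ^ (-(1 - γ₀)) := by
        rw [mul_comm, ← Real.rpow_add_one hl.ne']; ring_nf
      rw [this]
      nlinarith
    refine h3.trans_isLittleO ?_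
    refine (isLittleO_iff_tendsto' ?_).2 ?_
    · filter_upwards [eventually_ge_atTop 1] with n hn h
      exact absurd h (Real.rpow_pos_of_pos (by exact_mod_cast hn) _).ne'
    · refine (((tendsto_rpow_neg_atTop (half_pos hη)).comp
        tendsto_natCast_atTop_atTop)).congr' ?_
      filter_upwards [eventually_ge_atTop 1] with n hn
      rw [Function.comp, ← Real.rpow_sub (by exact_mod_cast hn)]
      ring_nf
  refine ⟨fun n => ?_, fun γ hγ => (key γ hγ).imp fun C h => h.2, key2, by simpa using key2 1 one_pos⟩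
  obtain ⟨C, -, h⟩ := embeds.{u} hp1 hp hD (lt_of_le_of_lt (le_max_left _ _) hγ₀)
    (lt_of_le_of_lt (le_max_right _ _) hγ₀)
  obtain ⟨d, -, he⟩ := h n
  exact Nat.sInf_mem (s := {d | Embeds.{u} p n D d}) ⟨d, he⟩

end Vale.Agent.Results.P249.Subpolynomial
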